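import Mathlib

/- Congruence lattices of finite algebras, and closed families of equivalence relations. -/

namespace Vale.Agent.P183

/-- `L` is order-isomorphic to the lattice of all congruences of some finite algebra with a
finite list of finitary operations. -/
def Representable (L : Type) [LE L] : Prop :=
  ∃ (A : Type) (_ : Finite A) (_ : Nonempty A) (m : ℕ) (ar : Fin m → ℕ)
    (op : ∀ i : Fin m, (Fin (ar i) → A) → A),
    Nonempty (L ≃o {r : Setoid A //
      ∀ i (u v : Fin (ar i) → A), (∀ k, r (u k) (v k)) → r (op i u) (op i v)})

/-- A map preserves every member of a family of equivalences. -/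
def Preserves {X ι : Type} (F : ι → Setoid X) (p : X → X) : Prop :=
  ∀ a x y, F a x y → F a (p x) (p y)

/-- An equivalence relation invariant under all maps preserving the family. -/
def Invariant {X ι : Type} (F : ι → Setoid X) (Φ : Setoid X) : Prop :=
  ∀ p, Preserves F p → ∀ x y, Φ x y → Φ (p x) (p y)

/-- A representation of `L` as a Galois closed family of equivalences on a finite set. -/
structure Model (L : Type) [LE L] where
  X : Type
  fin : Finite X
  ne : Nonempty X
  F : L → Setoid X
  le_iff : ∀ a b, F a ≤ F b ↔ a ≤ b
  closed : ∀ Φ, Invariant F Φ → ∃ a, F a = Φ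

attribute [instance] Model.fin Model.ne

variable {L L' : Type}

theorem Model.mono [LE L] (M : Model L) {a b : L} (h : a ≤ b) {x y : M.X} (hx : M.F a x y) :
    M.F b x y :=
  (M.le_iff a b).2 h hx

theorem Model.F_bot [PartialOrder L] [OrderBot L] (M : Model L) {x y : M.X} (h : M.F ⊥ x y) :
    x = y := by
  obtain ⟨a, ha⟩ := M.closed ⊥ (fun p _ x y hxy => by
    have : x = y := hxy
    subst this
    exact Setoid.refl' _ _)
  have h1 : M.F a x y := M.mono bot_le h
  rw [ha] at h1
  exact h1

theorem Model.F_top [PartialOrder L] (M : Model L) : ∃ a, (∀ b, b ≤ a) ∧ ∀ x y, M.F a x y := by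
  obtain ⟨a, ha⟩ := M.closed ⊤ (fun p _ x y _ => trivial)
  refine ⟨a, fun b => ?_, fun x y => by rw [ha]; trivial⟩
  rw [← M.le_iff, ha]; exact le_top

theorem Model.exists_bot [PartialOrder L] (M : Model L) : ∃ a : L, ∀ b, a ≤ b := by
  obtain ⟨a, ha⟩ := M.closed ⊥ (fun p _ x y hxy => by
    have : x = y := hxy
    subst this
    exact Setoid.refl' _ _)
  refine ⟨a, fun b => ?_⟩
  rw [← M.le_iff, ha]; exact bot_le

theorem Model.F_injective [PartialOrder L] (M : Model L) : Function.Injective M.F :=
  fun a b h => le_antisymm ((M.le_iff a b).1 h.le) ((M.le_iff b a).1 h.ge)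

theorem Model.finite [PartialOrder L] (M : Model L) : Finite L := by
  have : Finite (M.X → M.X → Prop) := inferInstance
  have : Finite (Setoid M.X) :=
    Finite.of_injective (fun s : Setoid M.X => (s.r : M.X → M.X → Prop))
      (fun s t h => Setoid.ext fun x y => Iff.of_eq (congrFun (congrFun h x) y))
  exact Finite.of_injective M.F M.F_injective

/-- Transport of a representation along an order isomorphism. -/
def Model.congr [LE L] [LE L'] (M : Model L) (e : L' ≃o L) : Model L' where
  X := M.X
  fin := M.fin
  ne := M.ne
  F := fun a => M.F (e a)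
  le_iff := fun a b => (M.le_iff _ _).trans e.le_iff_le
  closed := fun Φ h => by
    obtain ⟨a, ha⟩ := M.closed Φ (fun p hp x y hxy =>
      h p (fun b x y hb => hp (e b) x y hb) x y hxy)
    obtain ⟨b, rfl⟩ := e.surjective a
    exact ⟨b, ha⟩

theorem exists_model_of_representable [LE L] (h : Representable L) : Nonempty (Model L) := by
  obtain ⟨A, hfin, hne, m, ar, op, ⟨e⟩⟩ := h
  refine ⟨⟨A, hfin, hne, fun a => (e a).1, fun a b => e.le_iff_le, ?_⟩⟩
  intro Φ hΦ
  have key : ∀ i (u v : Fin (ar i) → A), (∀ k, Φ (u k) (v k)) → Φ (op i u) (op i v) := by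
    intro i u v huv
    classical
    have step : ∀ s : Finset (Fin (ar i)), Φ (op i u) (op i (s.piecewise v u)) := by
      intro s
      induction s using Finset.induction with
      | empty => simp [Setoid.refl']
      | @insert a s ha ih =>
        refine Setoid.trans' Φ ih ?_
        let w := s.piecewise v u
        let p : A → A := fun x => op i (Function.update w a x)
        have hp : Preserves (fun b => (e b).1) p := by
          intro b x y hxy
          apply (e b).2 i
          intro k
          by_cases hk : k = a
          · subst hk; simpa using hxy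
          · simp [Function.update_of_ne hk, Setoid.refl']
        have := hΦ p hp (u a) (v a) (huv a)
        have h1 : Function.update w a (u a) = w := by
          funext k
          by_cases hk : k = a
          · subst hk; simp [w, Finset.piecewise_eq_of_notMem _ _ _ ha]
          · simp [Function.update_of_ne hk]
        have h2 : Function.update w a (v a) = (insert a s).piecewise v u := by
          simp [w, Finset.piecewise_insert]
        simpa [p, h1, h2] using this
    simpa using step Finset.univ
  exact ⟨e.symm ⟨Φ, key⟩, by simp⟩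

theorem representable_of_model [PartialOrder L] (M : Model L) : Representable L := by
  classical
  let P := {p : M.X → M.X // Preserves M.F p}
  have : Finite P := inferInstance
  obtain ⟨m, ⟨e⟩⟩ := Finite.exists_equiv_fin P
  refine ⟨M.X, M.fin, M.ne, m, fun _ => 1, fun i u => (e.symm i).1 (u 0), ?_⟩
  let ok : L → {r : Setoid M.X //
      ∀ (i : Fin m) (u v : Fin 1 → M.X), (∀ k, r (u k) (v k)) →
        r ((e.symm i).1 (u 0)) ((e.symm i).1 (v 0))} :=
    fun a => ⟨M.F a, fun i u v h => (e.symm i).2 a _ _ (h 0)⟩
  refine ⟨RelIso.ofSurjective (OrderEmbedding.ofMapLEIff ok fun a b => M.le_iff a b) ?_⟩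
  intro r
  obtain ⟨a, ha⟩ := M.closed r.1 (fun p hp x y hxy => by
    have := r.2 (e ⟨p, hp⟩) (fun _ => x) (fun _ => y) (fun _ => hxy)
    simpa using this)
  exact ⟨a, Subtype.ext ha⟩

theorem representable_iff_model [PartialOrder L] : Representable L ↔ Nonempty (Model L) :=
  ⟨exists_model_of_representable, fun ⟨M⟩ => representable_of_model M⟩

end Vale.Agent.P183
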