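import Vale.Agent.P183.Extension

/- Lower bounded and upper bounded lattices are congruence normal. -/

namespace Vale.Agent.P183

/-- The join dependency relation `D` between join-irreducible elements. -/
def DRel {L : Type} [Lattice L] (a b : L) : Prop :=
  SupIrred a ∧ SupIrred b ∧ a ≠ b ∧ ∃ x, a ≤ b ⊔ x ∧ ∀ c < b, ¬ a ≤ c ⊔ x

/-- A finite lattice is lower bounded iff its join dependency relation has no cycle. -/
def LowerBounded (L : Type) [Lattice L] : Prop :=
  ∀ a : L, ¬ Relation.TransGen DRel a a

/-- A finite lattice is upper bounded iff its dual is lower bounded. -/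
def UpperBounded (L : Type) [Lattice L] : Prop :=
  LowerBounded Lᵒᵈ

namespace LowerBoundedAux

open scoped Classical

variable {L : Type} [Lattice L] [Fintype L] [OrderBot L]

noncomputable def kern (S : Finset L) (x : L) : L :=
  (S.filter (· ≤ x)).sup id

theorem kern_le (S : Finset L) (x : L) : kern S x ≤ x :=
  Finset.sup_le fun q hq => (Finset.mem_filter.1 hq).2

theorem le_kern {S : Finset L} {q x : L} (hq : q ∈ S) (h : q ≤ x) : q ≤ kern S x := by
  classical
  exact Finset.le_sup (f := id) (Finset.mem_filter.2 ⟨hq, h⟩)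

theorem kern_mono (S : Finset L) {x y : L} (h : x ≤ y) : kern S x ≤ kern S y :=
  Finset.sup_le fun _ hq =>
    le_kern (Finset.mem_filter.1 hq).1 (le_trans (Finset.mem_filter.1 hq).2 h)

theorem kern_kern (S : Finset L) (x : L) : kern S (kern S x) = kern S x :=
  le_antisymm (kern_le S _) (Finset.sup_le fun _ hq =>
    le_kern (Finset.mem_filter.1 hq).1
      (le_kern (Finset.mem_filter.1 hq).1 (Finset.mem_filter.1 hq).2))

/-- The elements that are joins of members of `S`. -/
abbrev Fixed (S : Finset L) := {x : L // kern S x = x}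

variable {S : Finset L} (hS : ∀ q ∈ S, SupIrred q) (hD : ∀ q ∈ S, ∀ r, DRel q r → r ∈ S)

include hS hD in
theorem le_sup_kern {q : L} (hq : q ∈ S) :
    ∀ (z y : L), q ≤ y ⊔ z → q ≤ y ⊔ kern S z := by
  intro z
  induction z using (wellFounded_lt (α := L)).induction with
  | _ z ih =>
    intro y hy
    by_cases hz : z ∈ S
    · exact hy.trans (sup_le_sup_left (le_kern hz le_rfl) y)
    by_cases hzb : z = ⊥
    · subst hzb
      exact hy.trans (sup_le le_sup_left bot_le)
    by_cases hirr : SupIrred z
    · have hqz : q ≠ z := fun h => hz (h ▸ hq)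
      have : ¬ DRel q z := fun h => hz (hD q hq z h)
      simp only [DRel, hS q hq, hirr, hqz, ne_eq, not_false_eq_true, true_and, not_exists,
        not_and, not_forall, not_not] at this
      obtain ⟨c, hc, hqc⟩ := this y (by rwa [sup_comm])
      exact (ih c hc y (by rwa [sup_comm])).trans
        (sup_le_sup_left (kern_mono S hc.le) y)
    · rw [not_supIrred] at hirr
      rcases hirr with h | ⟨a, b, hab, ha, hb⟩
      · exact absurd (isMin_iff_eq_bot.1 h) hzb
      · subst hab
        have h1 : q ≤ (y ⊔ a) ⊔ kern S b := ih b hb (y ⊔ a) (by rwa [sup_assoc])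
        have h2 : q ≤ (y ⊔ kern S b) ⊔ kern S a :=
          ih a ha (y ⊔ kern S b) (by rwa [sup_right_comm])
        exact h2.trans (sup_le (sup_le le_sup_left
          (le_trans (kern_mono S le_sup_right) le_sup_right))
          (le_trans (kern_mono S le_sup_left) le_sup_right))

include hS hD in
theorem kern_sup (a b : L) : kern S (a ⊔ b) = kern S a ⊔ kern S b := by
  classical
  refine le_antisymm (Finset.sup_le fun q hq => ?_)
    (sup_le (kern_mono S le_sup_left) (kern_mono S le_sup_right))
  obtain ⟨hqS, hqab⟩ := Finset.mem_filter.1 hq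
  have h1 := le_sup_kern hS hD hqS b a hqab
  have h2 := le_sup_kern hS hD hqS a (kern S b) (by rwa [sup_comm])
  rwa [sup_comm] at h2

theorem kern_insert {p x : L} :
    (p ≤ x → kern (insert p S) x = kern S x ⊔ p) ∧
      (¬ p ≤ x → kern (insert p S) x = kern S x) := by
  classical
  constructor <;> intro h <;>
    simp [kern, Finset.filter_insert, h, Finset.sup_insert, sup_comm]

include hS hD in
theorem congruenceNormal_insert {p : L}
    (h : CongruenceNormal (Fixed S) inferInstance) :
    CongruenceNormal (Fixed (insert p S)) inferInstance := by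
  classical
  let C : Set (Fixed S) := {y | kern S p ≤ y.1 ∧ ¬ p ≤ y.1}
  have hC : C.OrdConnected :=
    ⟨fun a ha b hb y hy => ⟨ha.1.trans hy.1, fun h => hb.2 (h.trans hy.2)⟩⟩
  have fixedMem : ∀ y : Fixed S, kern (insert p S) y.1 = y.1 := by
    intro y
    refine le_antisymm (kern_le _ _) ?_
    conv_lhs => rw [← y.2]
    exact Finset.sup_mono (Finset.filter_subset_filter _ (Finset.subset_insert p S))
  have supMem : ∀ y : Fixed S, kern (insert p S) (y.1 ⊔ p) = y.1 ⊔ p := by
    intro y
    refine le_antisymm (kern_le _ _) (sup_le ?_ (le_kern (Finset.mem_insert_self p S) le_sup_right))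
    exact (fixedMem y).ge.trans (kern_mono _ le_sup_left)
  have kern_top : ∀ y : Fixed S, kern S p ≤ y.1 → kern S (y.1 ⊔ p) = y.1 := by
    intro y hy
    rw [kern_sup hS hD, y.2, sup_eq_left.2 hy]
  let f : Doubling C → Fixed (insert p S) := fun x =>
    ⟨if x.bit then x.pt.1 ⊔ p else x.pt.1, by
      cases x.bit
      · exact fixedMem x.pt
      · exact supMem x.pt⟩
  have bitC : ∀ x : Doubling C, x.bit = true → x.pt ∈ C := by
    intro x hx
    by_contra hc
    rw [x.bit_eq hc] at hx
    exact Bool.false_ne_true hx
  have kernf : ∀ x : Doubling C, kern S (f x).1 = x.pt.1 := by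
    intro x
    cases hb : x.bit
    · simp [f, hb, x.pt.2]
    · simp [f, hb, kern_top x.pt (bitC x hb).1]
  have pf : ∀ x : Doubling C, p ≤ (f x).1 ↔ (x.bit = true ∨ p ≤ x.pt.1) := by
    intro x
    cases hb : x.bit <;> simp [f, hb]
  have hle : ∀ x y, f x ≤ f y ↔ x ≤ y := by
    intro x y
    constructor
    · intro hxy
      have h1 : x.pt.1 ≤ y.pt.1 := by
        rw [← kernf x, ← kernf y]; exact kern_mono S hxy
      refine ⟨h1, fun _ hy => ?_⟩
      cases hb : x.bit
      · exact bot_le
      · have := ((pf y).1 (((pf x).2 (.inl hb)).trans hxy)).resolve_right hy.2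
        simp [this]
    · rintro ⟨h1, h2⟩
      have hb : x.pt.1 ≤ (f y).1 := by
        refine le_trans (show x.pt.1 ≤ y.pt.1 from h1) ?_
        cases hyb : y.bit <;> simp [f, hyb]
      change (f x).1 ≤ (f y).1
      cases hxb : x.bit
      · simpa [f, hxb] using hb
      · have hp : p ≤ (f y).1 := by
          rw [pf y]
          by_cases hy : y.pt ∈ C
          · left
            have := h2 (bitC x hxb) hy
            rw [hxb] at this
            exact top_le_iff.1 this
          · right
            by_contra hp
            exact hy ⟨(bitC x hxb).1.trans h1, hp⟩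
        simpa [f, hxb] using And.intro hb hp
  have hsurj : Function.Surjective f := by
    rintro ⟨z, hz⟩
    let y : Fixed S := ⟨kern S z, kern_kern S z⟩
    by_cases hp : p ≤ z
    · have hz' : kern S z ⊔ p = z := ((kern_insert).1 hp).symm.trans hz
      by_cases hpy : p ≤ kern S z
      · refine ⟨⟨y, false, fun _ => rfl⟩, Subtype.ext ?_⟩
        change kern S z = z
        rwa [sup_eq_left.2 hpy] at hz'
      · refine ⟨⟨y, true, fun h => absurd ⟨kern_mono S hp, hpy⟩ h⟩, Subtype.ext ?_⟩
        exact hz'
    · refine ⟨⟨y, false, fun _ => rfl⟩, Subtype.ext ?_⟩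
      exact ((kern_insert).2 hp).symm.trans hz
  have hinj : Function.Injective f := by
    intro x y hxy
    have h1 : x.pt = y.pt := Subtype.ext (by rw [← kernf x, ← kernf y, hxy])
    have h2 : x.bit = y.bit := by
      by_cases hC' : x.pt ∈ C
      · have a := (hle x y).1 hxy.le
        have b := (hle y x).1 hxy.ge
        exact le_antisymm (a.2 hC' (h1 ▸ hC')) (b.2 (h1 ▸ hC') hC')
      · rw [x.bit_eq hC', y.bit_eq (h1 ▸ hC')]
    obtain ⟨a, b, hb⟩ := x
    obtain ⟨a', b', hb'⟩ := y
    cases h1
    cases h2
    rfl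
  let e : Doubling C ≃o Fixed (insert p S) :=
    ⟨Equiv.ofBijective f ⟨hinj, hsurj⟩, fun {x y} => hle x y⟩
  exact .double _ _ C h hC e.symm

end LowerBoundedAux

open LowerBoundedAux in
/-- Every finite lower bounded lattice is congruence normal. -/
theorem congruenceNormal_of_lowerBounded {L : Type} [Lattice L] [Finite L] [Nonempty L]
    (h : LowerBounded L) : CongruenceNormal L inferInstance := by
  classical
  let _ := Fintype.ofFinite L
  let _ : OrderBot L := Fintype.toOrderBot L
  let J : Finset L := Finset.univ.filter SupIrred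
  have main : ∀ n, ∃ S ⊆ J, (∀ q ∈ S, ∀ r, DRel q r → r ∈ S) ∧
      CongruenceNormal (Fixed S) inferInstance ∧ (n ≤ S.card ∨ S = J) := by
    intro n
    induction n with
    | zero =>
      have key : ∀ a : Fixed (∅ : Finset L), a.1 = ⊥ := fun a => by
        simpa [kern, eq_comm] using a.2
      refine ⟨∅, by simp, by simp, .one _ ?_ ?_, .inl le_rfl⟩
      · exact ⟨fun a b => Subtype.ext ((key a).trans (key b).symm)⟩
      · exact ⟨⟨⊥, by simp [kern]⟩⟩
    | succ n ih =>
      obtain ⟨S, hSJ, hD, hCN, hn⟩ := ih
      by_cases hJ : S = J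
      · exact ⟨S, hSJ, hD, hCN, .inr hJ⟩
      · have hne : {x | x ∈ J ∧ x ∉ S}.Nonempty := by
          obtain ⟨x, hx, hxS⟩ := Finset.exists_of_ssubset
            (Finset.ssubset_iff_subset_ne.2 ⟨hSJ, hJ⟩)
          exact ⟨x, hx, hxS⟩
        let R : L → L → Prop := Relation.TransGen (fun a b => DRel b a)
        have : Std.Irrefl R := ⟨fun a ha => h a (Relation.transGen_swap.1 ha)⟩
        have : IsTrans L R := ⟨fun _ _ _ => Relation.TransGen.trans⟩
        have wf : WellFounded (fun a b : L => DRel b a) :=
          Subrelation.wf (r := R) (fun {x y} hxy => Relation.TransGen.single hxy)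
            (Finite.wellFounded_of_trans_of_irrefl R)
        obtain ⟨p, ⟨hpJ, hpS⟩, hmax⟩ := wf.has_min _ hne
        have hsucc : ∀ r, DRel p r → r ∈ S := by
          intro r hr
          by_contra hrS
          exact hmax r ⟨Finset.mem_filter.2 ⟨Finset.mem_univ _, hr.2.1⟩, hrS⟩ hr
        refine ⟨insert p S, Finset.insert_subset hpJ hSJ, ?_,
          congruenceNormal_insert (fun q hq => (Finset.mem_filter.1 (hSJ hq)).2) hD hCN, .inl ?_⟩
        · intro q hq r hr
          rcases Finset.mem_insert.1 hq with rfl | hq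
          · exact Finset.mem_insert_of_mem (hsucc r hr)
          · exact Finset.mem_insert_of_mem (hD q hq r hr)
        · rw [Finset.card_insert_of_notMem hpS]
          rcases hn with hn | hn
          · omega
          · exact absurd hn hJ
  obtain ⟨S, hSJ, -, hCN, hn⟩ := main (J.card + 1)
  have hSJ' : S = J := by
    rcases hn with hn | hn
    · have := Finset.card_le_card hSJ
      omega
    · exact hn
  subst hSJ'
  have fix : ∀ x : L, kern J x = x := by
    intro x
    obtain ⟨s, hs, hirr⟩ := exists_supIrred_decomposition x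
    refine le_antisymm (kern_le _ _) ?_
    conv_lhs => rw [← hs]
    exact Finset.sup_le fun q hq =>
      le_kern (Finset.mem_filter.2 ⟨Finset.mem_univ _, hirr hq⟩) (hs ▸ Finset.le_sup (f := id) hq)
  exact hCN.congr _ ⟨⟨fun x => ⟨x, fix x⟩, fun x => x.1, fun _ => rfl, fun _ => rfl⟩, Iff.rfl⟩

/-- Every finite upper bounded lattice is congruence normal. -/
theorem congruenceNormal_of_upperBounded {L : Type} [Lattice L] [Finite L] [Nonempty L]
    (h : UpperBounded L) : CongruenceNormal L inferInstance :=
  (congruenceNormal_of_lowerBounded (L := Lᵒᵈ) h).dual.congr _ (OrderIso.dualDual L)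

end Vale.Agent.P183
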