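import Vale.Agent.P183.Gadget

/- Completeness of the gluing construction. -/

namespace Vale.Agent.P183

namespace Gadget

variable {Λ L : Type} [PartialOrder Λ] [PartialOrder L] [OrderBot L]
  (M : Model Λ) {N : Model L} {Low : Set Λ} {g : Low → L} (D : Data Low g)

include M D in
/-- The least element of the extension. -/
theorem exists_ext_bot : ∃ s0 : Ext Λ L Low g, ∀ s, s0 ≤ s := by
  classical
  obtain ⟨a0, ha0⟩ := M.exists_bot
  refine ⟨⟨(a0, if h : a0 ∈ Low then g ⟨a0, h⟩ else ⊥), ?_, ?_⟩, fun s => ⟨ha0 _, ?_⟩⟩
  · intro h; simp only [dif_neg h]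
  · intro h; simp only [dif_pos h]; exact le_rfl
  · by_cases h : a0 ∈ Low
    · simp only [dif_pos h]
      have hs : s.1.1 ∈ Low := D.mono_low (ha0 _) h
      exact le_trans (D.mono_g (show (⟨a0, h⟩ : Low) ≤ ⟨s.1.1, hs⟩ from ha0 _)) (s.2.2 hs)
    · simp only [dif_neg h]; exact bot_le

theorem rho_mono {s t : Ext Λ L Low g} (h : s ≤ t) : rho M D s ≤ (rho M D t : Setoid (R M N Low g)) := by
  rintro x y (hx | ⟨w, w', h1, h2, h3⟩)
  · left
    rcases x with w | ⟨i, u⟩ <;> rcases y with w' | ⟨j, v⟩ <;> simp only [Same] at hx ⊢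
    · exact hx
    · exact ⟨hx.1, fun p => M.mono h.1 (hx.2 p)⟩
  · right
    refine ⟨w, w', ?_, ?_, ?_⟩
    · rcases x with w0 | ⟨i, u⟩
      · exact h1
      · exact h1.imp (fun k => ⟨k.1, fun p => M.mono h.1 (k.2 p)⟩)
          (fun k => ⟨k.1, fun p => M.mono h.1 (k.2 p)⟩)
    · rcases y with w0 | ⟨i, u⟩
      · exact h2
      · exact h2.imp (fun k => ⟨k.1, fun p => M.mono h.1 (k.2 p)⟩)
          (fun k => ⟨k.1, fun p => M.mono h.1 (k.2 p)⟩)
    · exact h3.imp id (fun k => ⟨live_mono M h.1 k.1, live_mono M h.1 k.2.1, N.mono h.2 k.2.2⟩)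

/-- Gluing: the end points of a piece are identified with nodes in every member. -/
theorem glue_src (s : Ext Λ L Low g) (i : Piece N Low g) :
    rho M D s (.inr (i, base M)) (.inl (src i)) :=
  .inr ⟨src i, src i, .inl ⟨rfl, vrel_refl _ _⟩, rfl, .inl rfl⟩

theorem glue_tgt (s : Ext Λ L Low g) (i : Piece N Low g) :
    rho M D s (.inr (i, top M i)) (.inl (tgt i)) :=
  .inr ⟨tgt i, tgt i, .inr ⟨rfl, vrel_refl _ _⟩, rfl, .inl rfl⟩

/-- The map of raw points induced by a map of the fibre algebra. -/
def mapW (f : N.X → N.X) : W N Low → W N Low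
  | .P γ c => .P γ (f c)
  | .hub γ c => .hub γ (f c)
  | .J e c => .J e (f c)

def mapI {f : N.X → N.X} (hf : Preserves N.F f) : Piece N Low g → Piece N Low g
  | .inl s => .inl ⟨(s.1.1, f s.1.2.1, f s.1.2.2), hf _ _ _ s.2⟩
  | .inr (e, c, t) => .inr (e, f c, t)

def mapR {f : N.X → N.X} (hf : Preserves N.F f) : R M N Low g → R M N Low g
  | .inl w => .inl (mapW f w)
  | .inr (i, u) => .inr (mapI hf i, u)

theorem src_mapI {f : N.X → N.X} (hf : Preserves N.F f) (i : Piece N Low g) :
    src (mapI hf i) = mapW f (src i) := by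
  rcases i with s | ⟨e, c, _ | _⟩ <;> rfl

theorem tgt_mapI {f : N.X → N.X} (hf : Preserves N.F f) (i : Piece N Low g) :
    tgt (mapI hf i) = mapW f (tgt i) := by
  rcases i with s | ⟨e, c, _ | _⟩ <;> rfl

theorem col_mapW (f : N.X → N.X) (w : W N Low) : col M (mapW f w) = col M w := by
  cases w <;> rfl

theorem key_mapW (f : N.X → N.X) (w : W N Low) : key (mapW f w) = f (key w) := by
  cases w <;> rfl

theorem mapR_preserves {f : N.X → N.X} (hf : Preserves N.F f) :
    Preserves (fun s => (rho M D s : Setoid (R M N Low g))) (mapR M hf) := by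
  intro s x y h
  have att : ∀ {x : R M N Low g} {w}, Att M s.1.1 x w → Att M s.1.1 (mapR M hf x) (mapW f w) := by
    intro x w h
    rcases x with w0 | ⟨i, u⟩
    · exact congrArg _ h
    · have htop : top M (mapI hf i) = top M i := by
        funext p
        have hcm : col M (tgt (mapI hf i)) p ↔ col M (tgt i) p := by rw [tgt_mapI, col_mapW]
        by_cases hh : col M (tgt i) p <;> simp [top, hcm, hh]
      rcases h with ⟨rfl, h⟩ | ⟨rfl, h⟩
      · exact .inl ⟨(src_mapI hf i).symm, h⟩
      · exact .inr ⟨(tgt_mapI hf i).symm, by rw [htop]; exact h⟩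
  rcases h with h | ⟨w, w', h1, h2, h3⟩
  · left
    rcases x with w | ⟨i, u⟩ <;> rcases y with w' | ⟨j, v⟩ <;> simp only [Same] at h
    · subst h; exact same_refl M _ _
    · obtain ⟨rfl, h⟩ := h; exact ⟨rfl, h⟩
  · refine .inr ⟨mapW f w, mapW f w', att h1, att h2, ?_⟩
    rcases h3 with rfl | ⟨k1, k2, k3⟩
    · exact .inl rfl
    · exact .inr ⟨by simpa [Live, col_mapW] using k1, by simpa [Live, col_mapW] using k2,
        by simpa [key_mapW] using hf _ _ _ k3⟩

/-- Maps from the base algebra into the glued point set preserving every member. -/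
def IsHom (h : M.X → R M N Low g) : Prop :=
  ∀ s : Ext Λ L Low g, ∀ x y, M.F s.1.1 x y → rho M D s (h x) (h y)

def baseRel (Φ : Setoid (R M N Low g)) : Setoid M.X where
  r x y := ∀ h, IsHom M D h → Φ (h x) (h y)
  iseqv := ⟨fun x h _ => Setoid.refl' Φ _, fun k h hh => Setoid.symm' Φ (k h hh),
    fun k k' h hh => Setoid.trans' Φ (k h hh) (k' h hh)⟩

theorem exists_ext_of_closed (hne : Low.Nonempty) (Φ : Setoid (R M N Low g))
    (hΦ : Invariant (fun s => (rho M D s : Setoid (R M N Low g))) Φ)
    (hbot : ∃ s0 : Ext Λ L Low g, rho M D s0 ≤ Φ) :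
    ∃ s, rho M D s = Φ := by
  classical
  obtain ⟨s0, hs0⟩ := hbot
  -- the base component
  obtain ⟨a, ha⟩ := M.closed (baseRel M D Φ) (fun p hp x y k h hh =>
    k (fun z => h (p z)) (fun s u v huv => hh s _ _ (hp _ _ _ huv)))
  have hθ : ∀ x y, M.F a x y → ∀ h, IsHom M D h → Φ (h x) (h y) := by
    intro x y k
    rw [ha] at k
    exact k
  -- separating maps give pointwise information
  have sep : ∀ {side : M.X × M.X → W N Low → Prop} {i0 : Piece N Low g → Prop},
      IsCut M side → (∀ i, i0 i → Fits M side i) → ∀ {x y}, Φ x y →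
      Vrel M a (fval M side i0 x) (fval M side i0 y) := by
    intro side i0 hc h0 x y hxy p
    rw [ha]
    intro h hh
    exact hΦ (fun z => h (fval M side i0 z p))
      (fun s u v huv => hh s _ _ (fval_rho M D hc h0 s huv p)) x y hxy
  -- lines inside a piece
  have line : ∀ (i : Piece N Low g) {u v : U M}, Vrel M a u v →
      Φ (.inr (i, u)) (.inr (i, v)) := by
    intro i u v huv
    let _ : Fintype (M.X × M.X) := Fintype.ofFinite _
    have step : ∀ t : Finset (M.X × M.X), Φ (.inr (i, u)) (.inr (i, t.piecewise v u)) := by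
      intro t
      induction t using Finset.induction with
      | empty => simp [Setoid.refl']
      | @insert p t hp ih =>
        refine Setoid.trans' Φ ih ?_
        let w := t.piecewise v u
        have hh : IsHom M D (fun z => (.inr (i, Function.update w p z) : R M N Low g)) := by
          intro s x y hxy
          refine .inl ⟨rfl, fun q => ?_⟩
          by_cases hq : q = p
          · subst hq; simpa using hxy
          · simp [Function.update_of_ne hq, Setoid.refl']
        have := hθ _ _ (huv p) _ hh
        have h1 : Function.update w p (u p) = w := by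
          funext q
          by_cases hq : q = p
          · subst hq; simp [w, Finset.piecewise_eq_of_notMem _ _ _ hp]
          · simp [Function.update_of_ne hq]
        have h2 : Function.update w p (v p) = (insert p t).piecewise v u := by
          simp [w, Finset.piecewise_insert]
        simpa [h1, h2] using this
    simpa using step Finset.univ
  have gs : ∀ i : Piece N Low g, Φ (.inr (i, base M)) (.inl (src i)) :=
    fun i => hs0 (glue_src M D s0 i)
  have gt : ∀ i : Piece N Low g, Φ (.inr (i, top M i)) (.inl (tgt i)) :=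
    fun i => hs0 (glue_tgt M D s0 i)
  have cross : ∀ i : Piece N Low g, Live M a (tgt i) → Φ (.inl (src i)) (.inl (tgt i)) :=
    fun i hi => Setoid.trans' Φ (Setoid.symm' Φ (gs i))
      (Setoid.trans' Φ (line i (base_top_of_live M hi)) (gt i))
  -- each live node is joined to a node of type P
  have toP : ∀ w : W N Low, Live M a w →
      ∃ γ : Low, γ.1 ≤ a ∧ Φ (.inl w) (.inl (.P γ (key w))) := by
    intro w hw
    cases w with
    | P γ c => exact ⟨γ, (live_P M).1 hw, Setoid.refl' Φ _⟩
    | hub γ c =>
      exact ⟨γ, (live_hub M).1 hw,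
        Setoid.symm' Φ (cross (.inl ⟨(γ, c, c), Setoid.refl' _ _⟩) hw)⟩
    | J e c =>
      refine ⟨e.1.1, (live_P M (c := c)).1 (fun p hp => hw p (.inl hp)), ?_⟩
      exact Setoid.symm' Φ (cross (.inr (e, c, false)) hw)
  have link : ∀ (γ δ : Low) (c : N.X), γ.1 ≤ a → δ.1 ≤ a →
      Φ (.inl (.P γ c)) (.inl (.P δ c)) := by
    have main : ∀ (e : Pairs Low) (c : N.X), e.1.1.1 ≤ a → e.1.2.1 ≤ a →
        Φ (.inl (.P e.1.1 c)) (.inl (.P e.1.2 c)) := by
      intro e c h1 h2
      have hl : Live M a (.J e c : W N Low) := by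
        intro p hp
        rcases hp with hp | hp
        · exact M.mono h1 hp
        · exact M.mono h2 hp
      exact Setoid.trans' Φ (cross (.inr (e, c, false)) hl)
        (Setoid.symm' Φ (cross (.inr (e, c, true)) hl))
    intro γ δ c h1 h2
    rcases trichotomous_of WellOrderingRel γ δ with h | h | h
    · exact main ⟨(γ, δ), h⟩ c h1 h2
    · subst h; exact Setoid.refl' Φ _
    · exact Setoid.symm' Φ (main ⟨(δ, γ), h⟩ c h2 h1)
  -- the fibre component
  let π : Setoid N.X :=
    { r := fun c c' => c = c' ∨ ∃ γ : Low, γ.1 ≤ a ∧ Φ (.inl (.P γ c)) (.inl (.P γ c'))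
      iseqv := {
        refl := fun _ => .inl rfl
        symm := by
          rintro c c' (rfl | ⟨γ, h, k⟩)
          · exact .inl rfl
          · exact .inr ⟨γ, h, Setoid.symm' Φ k⟩
        trans := by
          rintro c c' c'' (rfl | ⟨γ, h, k⟩) hk
          · exact hk
          · rcases hk with rfl | ⟨δ, h', k'⟩
            · exact .inr ⟨γ, h, k⟩
            · exact .inr ⟨γ, h, Setoid.trans' Φ k (Setoid.trans' Φ (link γ δ c' h h')
                (Setoid.trans' Φ k' (link δ γ c'' h' h)))⟩ } }
  obtain ⟨b, hb⟩ := N.closed π (by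
    intro f hf c c' hcc
    rcases hcc with rfl | ⟨γ, h, k⟩
    · exact Setoid.refl' _ _
    · exact .inr ⟨γ, h, hΦ (mapR M hf) (mapR_preserves M D hf) _ _ k⟩)
  have hb' : ∀ {c c'}, π c c' → N.F b c c' := fun {c c'} h => by rw [hb]; exact h
  have hvalid : (a ∉ Low → b = ⊥) ∧ ∀ h : a ∈ Low, g ⟨a, h⟩ ≤ b := by
    constructor
    · intro hna
      refine le_antisymm ((N.le_iff _ _).1 fun {c c'} hcc => ?_) bot_le
      rw [hb] at hcc
      rcases hcc with rfl | ⟨γ, h, -⟩
      · exact Setoid.refl' _ _
      · exact absurd (D.mono_low h γ.2) hna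
    · intro hla
      refine (N.le_iff _ _).1 fun {c c'} hcc => hb' (.inr ⟨⟨a, hla⟩, le_rfl, ?_⟩)
      have hl : Live M a (.hub ⟨a, hla⟩ c : W N Low) := (live_hub M).2 le_rfl
      have k1 := cross (.inl ⟨(⟨a, hla⟩, c, c), Setoid.refl' _ _⟩) hl
      have k2 := cross (.inl ⟨(⟨a, hla⟩, c, c'), hcc⟩) hl
      exact Setoid.trans' Φ k1 (Setoid.symm' Φ k2)
  let s : Ext Λ L Low g := ⟨(a, b), hvalid⟩
  refine ⟨s, le_antisymm ?_ ?_⟩
  · -- members are forced
    have attΦ : ∀ {x : R M N Low g} {w}, Att M a x w → Φ x (.inl w) := by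
      intro x w h
      rcases x with w0 | ⟨i, u⟩
      · cases h; exact Setoid.refl' Φ _
      · rcases h with ⟨rfl, h⟩ | ⟨rfl, h⟩
        · exact Setoid.trans' Φ (line i h) (gs i)
        · exact Setoid.trans' Φ (line i h) (gt i)
    rintro x y (h | ⟨w, w', h1, h2, h3⟩)
    · rcases x with w | ⟨i, u⟩ <;> rcases y with w' | ⟨j, v⟩ <;> simp only [Same] at h
      · subst h; exact Setoid.refl' Φ _
      · obtain ⟨rfl, h⟩ := h; exact line i h
    · refine Setoid.trans' Φ (attΦ h1) (Setoid.trans' Φ ?_ (Setoid.symm' Φ (attΦ h2)))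
      rcases h3 with rfl | ⟨l1, l2, hk⟩
      · exact Setoid.refl' Φ _
      · obtain ⟨γ, hγ, kγ⟩ := toP w l1
        obtain ⟨δ, hδ, kδ⟩ := toP w' l2
        refine Setoid.trans' Φ kγ (Setoid.trans' Φ ?_ (Setoid.symm' Φ kδ))
        change N.F b (key w) (key w') at hk
        rw [hb] at hk
        rcases hk with hk | ⟨ε, hε, kε⟩
        · rw [← hk]; exact link γ δ _ hγ hδ
        · exact Setoid.trans' Φ (link γ ε _ hγ hε) (Setoid.trans' Φ kε (link ε δ _ hε hδ))
  · -- nothing else is related
    intro x y hxy
    have attach : ∀ {i : Piece N Low g} {u : U M} {z : R M N Low g},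
        Φ (.inr (i, u)) z → (∀ v, z ≠ .inr (i, v)) → ∃ w, Att M a (.inr (i, u)) w := by
      intro i u z hz hne
      let i0 : Piece N Low g → Prop := fun j => j = i
      have go : ∀ (side : M.X × M.X → W N Low → Prop), IsCut M side → Fits M side i →
          (fval M side i0 z = base M ∨ fval M side i0 z = top M i) →
          ∃ w, Att M a (.inr (i, u)) w := by
        intro side hc hf hv
        have k := sep (i0 := i0) hc (fun j (hj : j = i) => hj ▸ hf) hz
        have hu : fval M side i0 (.inr (i, u)) = u := by
          funext p; simp [fval, i0]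
        rw [hu] at k
        rcases hv with hv | hv <;> rw [hv] at k
        · exact ⟨_, .inl ⟨rfl, k⟩⟩
        · exact ⟨_, .inr ⟨rfl, k⟩⟩
      have val_single : ∀ w, val M (single M (tgt i)) w = base M ∨
          val M (single M (tgt i)) w = top M i := by
        intro w
        by_cases h : w = tgt i
        · right; funext p; subst h; simp [val, single, top]
        · left; funext p; simp [val, single, h, base]
      rcases z with w | ⟨j, v⟩
      · exact go _ (single_isCut M _) (single_fits M i (src_ne_tgt i)) (val_single w)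
      · have hji : j ≠ i := fun h => hne v (by rw [h])
        have const : ∀ (side : M.X × M.X → W N Low → Prop),
            (∀ p, side p (src j) ↔ side p (tgt j)) →
            fval M side i0 (.inr (j, v)) = val M side (src j) := by
          intro side h
          funext p; simp [fval, i0, hji, h p]
        by_cases hcase : src j ≠ tgt i ∧ tgt j ≠ tgt i
        · refine go _ (single_isCut M _) (single_fits M i (src_ne_tgt i)) ?_
          rw [const _ (fun p => by simp [single, hcase.1, hcase.2])]
          exact val_single _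
        · -- the sibling of a piece
          have htt : tgt j = tgt i := by
            by_contra h
            apply hcase ⟨?_, h⟩
            rcases i with s | ⟨e, c, _ | _⟩ <;> rcases j with s' | ⟨e', c', _ | _⟩ <;>
              simp [src, tgt]
          rcases i with ⟨⟨γ, c, c'⟩, hc⟩ | ⟨e, c, t⟩
          · rcases j with ⟨⟨γ', d, d'⟩, hd⟩ | ⟨e', d, t'⟩
            · simp only [tgt, Node.hub.injEq] at htt
              obtain ⟨rfl, rfl⟩ := htt
              have hdc : d' ≠ c' := by
                rintro rfl
                exact hji rfl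
              let side : M.X × M.X → W N Low → Prop :=
                fun p w => M.F γ'.1 p.1 p.2 ∧ w ≠ .P γ' c'
              refine go side ?_ ?_ (.inr ?_)
              · intro p w w' hw hw'
                have : w' = .P γ' c' := by
                  by_contra h
                  exact hw' ⟨hw.1, h⟩
                exact .inr (this ▸ hw.1)
              · intro p
                simp [side, src, tgt, col]
              · rw [const side (fun p => by simp [side, src, tgt, hdc])]
                funext p
                by_cases hh : M.F γ'.1 p.1 p.2 <;> simp [val, side, src, top, tgt, col, hdc, hh]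
            · simp [tgt] at htt
          · rcases j with s' | ⟨e', d, t'⟩
            · simp [tgt] at htt
            · simp only [tgt, Node.J.injEq] at htt
              obtain ⟨rfl, rfl⟩ := htt
              have htne : t' ≠ t := fun h => hji (by rw [h])
              have hne' : e'.1.1 ≠ e'.1.2 := fun h => by
                have h2 := e'.2
                rw [h] at h2
                exact absurd h2 (irrefl _)
              let g1 : Low := bif t then e'.1.2 else e'.1.1
              let g2 : Low := bif t then e'.1.1 else e'.1.2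
              have hsrc : src (.inr (e', d, t) : Piece N Low g) = .P g1 d := by
                cases t <;> rfl
              have hsrc' : src (.inr (e', d, t') : Piece N Low g) = .P g2 d := by
                cases t <;> cases t' <;> simp at htne <;> rfl
              have hg12 : g1 ≠ g2 := by
                cases t <;> simp [g1, g2, hne', hne'.symm]
              have hcol : ∀ p : M.X × M.X, (M.F g1.1 p.1 p.2 ∨ M.F g2.1 p.1 p.2) ↔
                  (M.F e'.1.1.1 p.1 p.2 ∨ M.F e'.1.2.1 p.1 p.2) := by
                intro p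
                cases t
                · exact Iff.rfl
                · exact or_comm
              let side : M.X × M.X → W N Low → Prop := fun p w =>
                if M.F g2.1 p.1 p.2 then (w = .J e' d ∨ w = .P g2 d)
                else (M.F g1.1 p.1 p.2 ∧ w ≠ .P g1 d)
              refine go side ?_ ?_ (.inr ?_)
              · intro p w w' hw hw'
                by_cases h2 : M.F g2.1 p.1 p.2
                · simp only [side, h2, if_true] at hw
                  rcases hw with rfl | rfl
                  · exact .inl ((hcol p).1 (.inr h2))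
                  · exact .inl h2
                · simp only [side, h2, if_false] at hw hw'
                  have : w' = .P g1 d := by
                    by_contra h
                    exact hw' ⟨hw.1, h⟩
                  exact .inr (this ▸ hw.1)
              · intro p
                rw [hsrc]
                change _ ∧ (side p (.J e' d) ↔ (M.F e'.1.1.1 p.1 p.2 ∨ M.F e'.1.2.1 p.1 p.2))
                rw [← hcol p]
                by_cases h2 : M.F g2.1 p.1 p.2 <;> simp [side, h2, hg12]
              · have hs : ∀ p, side p (src (.inr (e', d, t') : Piece N Low g)) ↔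
                    side p (tgt (.inr (e', d, t') : Piece N Low g)) := by
                  intro p
                  rw [hsrc']
                  by_cases h2 : M.F g2.1 p.1 p.2 <;> simp [side, h2, tgt, hg12.symm]
                rw [const side hs, hsrc']
                funext p
                have hc2 : col M (tgt (.inr (e', d, t) : Piece N Low g)) p ↔
                    (M.F g1.1 p.1 p.2 ∨ M.F g2.1 p.1 p.2) := (hcol p).symm
                simp only [val, top, hc2]
                by_cases h2 : M.F g2.1 p.1 p.2
                · simp [side, h2]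
                · simp [side, h2, hg12.symm]
    by_cases hsame : Same M a x y
    · exact .inl hsame
    have idx : ∀ {i : Piece N Low g} {u v : U M},
        Φ (.inr (i, u)) (.inr (i, v)) → Vrel M a u v := by
      intro i u v k
      have k' := sep (i0 := fun j => j = i) (single_isCut M (tgt i))
        (fun j hj => hj ▸ single_fits M i (src_ne_tgt i)) k
      intro p
      simpa [fval] using k' p
    have getAtt : ∀ {x y : R M N Low g}, Φ x y → ¬ Same M a x y → ∃ w, Att M a x w := by
      intro x y k ns
      rcases x with w | ⟨i, u⟩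
      · exact ⟨w, rfl⟩
      · refine attach k ?_
        rintro v rfl
        exact ns ⟨rfl, idx k⟩
    obtain ⟨w, hw⟩ := getAtt hxy hsame
    obtain ⟨w', hw'⟩ := getAtt (Setoid.symm' Φ hxy) (fun h => hsame (same_symm M h))
    have attΦ : ∀ {x : R M N Low g} {w}, Att M a x w → Φ x (.inl w) := by
      intro x w h
      rcases x with w0 | ⟨i, u⟩
      · cases h; exact Setoid.refl' Φ _
      · rcases h with ⟨rfl, h⟩ | ⟨rfl, h⟩
        · exact Setoid.trans' Φ (line i h) (gs i)
        · exact Setoid.trans' Φ (line i h) (gt i)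
    have hww : Φ (.inl w) (.inl w') :=
      Setoid.trans' Φ (Setoid.symm' Φ (attΦ hw)) (Setoid.trans' Φ hxy (attΦ hw'))
    refine .inr ⟨w, w', hw, hw', ?_⟩
    by_cases heq : w = w'
    · exact .inl heq
    have lv : ∀ {w w' : W N Low}, Φ (.inl w) (.inl w') → w ≠ w' → Live M a w := by
      intro w w' k hne p hp
      have k' := sep (i0 := fun _ : Piece N Low g => False) (single_isCut M w)
        (fun i h => h.elim) k p
      simp only [fval, val, single, hp, true_and, if_true, Ne.symm hne, if_false] at k'
      exact Setoid.symm' _ k'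
    have l1 := lv hww heq
    have l2 := lv (Setoid.symm' Φ hww) (Ne.symm heq)
    refine .inr ⟨l1, l2, hb' ?_⟩
    obtain ⟨γ, hγ, kγ⟩ := toP w l1
    obtain ⟨δ, hδ, kδ⟩ := toP w' l2
    exact .inr ⟨γ, hγ, Setoid.trans' Φ (Setoid.symm' Φ kγ)
      (Setoid.trans' Φ hww (Setoid.trans' Φ kδ (link δ γ _ hδ hγ)))⟩

theorem rho_le_iff {s t : Ext Λ L Low g} (hne : Low.Nonempty) :
    (rho M D s : Setoid (R M N Low g)) ≤ rho M D t ↔ s ≤ t := by
  refine ⟨fun h => ⟨(M.le_iff _ _).1 fun {x y} hxy => ?_, ?_⟩, rho_mono M D⟩
  · obtain ⟨γ, hγ⟩ := hne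
    obtain ⟨c⟩ := N.ne
    let i : Piece N Low g := .inl ⟨(⟨γ, hγ⟩, c, c), Setoid.refl' _ _⟩
    have k := fval_rho M D (single_isCut M (tgt i)) (i0 := fun j => j = i)
      (fun j hj => hj ▸ single_fits M i (src_ne_tgt i)) t
      (h (show rho M D s (.inr (i, fun _ => x)) (.inr (i, fun _ => y)) from
        .inl ⟨rfl, fun _ => hxy⟩)) (x, y)
    simpa [fval] using k
  · by_cases hs : s.1.1 ∈ Low
    · refine (N.le_iff _ _).1 fun {c c'} hcc => ?_
      let γ : Low := ⟨s.1.1, hs⟩
      have hlive : ∀ c : N.X, Live M s.1.1 (.P γ c : W N Low) :=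
        fun c => (live_P M).2 le_rfl
      have k : rho M D t (.inl (.P γ c) : R M N Low g) (.inl (.P γ c')) :=
        h (show rho M D s (.inl (.P γ c) : R M N Low g) (.inl (.P γ c')) from
          .inr ⟨_, _, rfl, rfl, .inr ⟨hlive c, hlive c', hcc⟩⟩)
      rcases k with k | ⟨w, w', k1, k2, k3⟩
      · simp only [Same, Node.P.injEq, true_and] at k
        subst k; exact Setoid.refl' _ _
      · cases k1; cases k2
        rcases k3 with k3 | ⟨-, -, k3⟩
        · simp only [Node.P.injEq, true_and] at k3
          subst k3; exact Setoid.refl' _ _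
        · exact k3
    · rw [s.2.1 hs]; exact bot_le

include M N D in
/-- The representation of the extension. -/
theorem nonempty_model (hne : Low.Nonempty) : Nonempty (Model (Ext Λ L Low g)) := by
  classical
  obtain ⟨s0, hs0⟩ := exists_ext_bot M D
  let ρ0 : Setoid (R M N Low g) := rho M D s0
  have hle : ∀ s, ρ0 ≤ rho M D s := fun s => rho_mono M D (hs0 s)
  have : Finite Λ := M.finite
  have : Finite (R M N Low g) := inferInstance
  have hR : Nonempty (R M N Low g) :=
    ⟨.inl (.P ⟨_, hne.some_mem⟩ (Classical.arbitrary N.X))⟩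
  have key : ∀ x : R M N Low g, ρ0 (Quotient.mk ρ0 x).out x := fun x => Quotient.mk_out x
  refine ⟨{
    X := Quotient ρ0
    fin := inferInstance
    ne := hR.map (Quotient.mk ρ0)
    F := fun s => (rho M D s).comap Quotient.out
    le_iff := ?_
    closed := ?_ }⟩
  · intro s t
    refine ⟨fun h => (rho_le_iff (N := N) M D hne).1 ?_,
      fun h {x y} hxy => rho_mono M D h hxy⟩
    intro x y hxy
    have h1 : rho M D s (Quotient.mk ρ0 x).out (Quotient.mk ρ0 y).out :=
      Setoid.trans' _ (hle s (key x)) (Setoid.trans' _ hxy (Setoid.symm' _ (hle s (key y))))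
    have h2 : rho M D t (Quotient.mk ρ0 x).out (Quotient.mk ρ0 y).out := h h1
    exact Setoid.trans' _ (Setoid.symm' _ (hle t (key x))) (Setoid.trans' _ h2 (hle t (key y)))
  · intro Φ' hΦ'
    obtain ⟨s, hs⟩ := exists_ext_of_closed M D hne (Φ'.comap (Quotient.mk ρ0))
      (by
        intro p hp x y hxy
        have hp' : Preserves (fun s => (rho M D s).comap (Quotient.out (s := ρ0)))
            (fun q => Quotient.mk ρ0 (p q.out)) := by
          intro s q q' hq
          change rho M D s (Quotient.mk ρ0 (p q.out)).out (Quotient.mk ρ0 (p q'.out)).out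
          exact Setoid.trans' _ (hle s (key (p q.out)))
            (Setoid.trans' _ (hp s _ _ hq) (Setoid.symm' _ (hle s (key (p q'.out)))))
        have k := hΦ' _ hp' _ _ hxy
        have e : ∀ z, Quotient.mk ρ0 (p (Quotient.mk ρ0 z).out) = Quotient.mk ρ0 (p z) :=
          fun z => Quotient.sound (hp s0 _ _ (key z))
        simp only [e] at k
        exact k)
      ⟨s0, fun {x y} hxy => by
        change Φ' (Quotient.mk ρ0 x) (Quotient.mk ρ0 y)
        rw [Quotient.sound hxy]⟩
    refine ⟨s, Setoid.ext fun q q' => ?_⟩
    change rho M D s q.out q'.out ↔ _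
    rw [hs]
    change Φ' (Quotient.mk ρ0 q.out) (Quotient.mk ρ0 q'.out) ↔ _
    rw [Quotient.out_eq, Quotient.out_eq]

end Gadget

end Vale.Agent.P183
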