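import Vale.Agent.P183.Closure

/- Consequences of the gluing construction: extensions and doubling of convex sets. -/

namespace Vale.Agent.P183

theorem representable_congr {L L' : Type} [LE L] [LE L'] (h : Representable L) (e : L' ≃o L) :
    Representable L' := by
  obtain ⟨A, hA, hne, m, ar, op, ⟨f⟩⟩ := h
  exact ⟨A, hA, hne, m, ar, op, ⟨e.trans f⟩⟩

/-- The class of representable lattices is closed under the extensions `Ext`. -/
theorem representable_ext {Λ L : Type} [PartialOrder Λ] [PartialOrder L] [OrderBot L]
    (hΛ : Representable Λ) (hL : Representable L) (Low : Set Λ) (hLow : IsUpperSet Low)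
    (g : Low → L) (hg : Monotone g) : Representable (Ext Λ L Low g) := by
  by_cases hne : Low.Nonempty
  · obtain ⟨M⟩ := exists_model_of_representable hΛ
    obtain ⟨N⟩ := exists_model_of_representable hL
    obtain ⟨K⟩ := Gadget.nonempty_model M (N := N) (⟨hLow, hg⟩ : Gadget.Data Low g) hne
    exact representable_of_model K
  · have hno : ∀ a, a ∉ Low := fun a ha => hne ⟨a, ha⟩
    let f : Ext Λ L Low g → Λ := fun x => x.1.1
    refine representable_congr hΛ (RelIso.ofSurjective (OrderEmbedding.ofMapLEIff f ?_) ?_)
    · intro a b
      refine ⟨fun h => ⟨h, ?_⟩, fun h => h.1⟩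
      rw [a.2.1 (hno _)]
      exact bot_le
    · intro a
      exact ⟨⟨(a, ⊥), fun _ => rfl, fun h => absurd h (hno a)⟩, rfl⟩

theorem representable_unique {L : Type} [PartialOrder L] [Unique L] : Representable L :=
  representable_of_model
    { X := Unit
      fin := inferInstance
      ne := inferInstance
      F := fun _ => ⊥
      le_iff := fun a b => by simp [Subsingleton.elim a b]
      closed := fun Φ _ => ⟨default, Setoid.ext fun x y => by
        simp [Subsingleton.elim x y, Setoid.refl']⟩ }

theorem representable_bool : Representable Bool :=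
  representable_of_model
    { X := Bool
      fin := inferInstance
      ne := inferInstance
      F := fun b => if b then ⊤ else ⊥
      le_iff := fun a b => by
        cases a <;> cases b
        · exact iff_of_true le_rfl le_rfl
        · exact iff_of_true bot_le (Bool.false_le _)
        · refine iff_of_false (fun h => ?_) (by decide)
          have k : (⊥ : Setoid Bool) true false := h (show (⊤ : Setoid Bool) true false from trivial)
          exact Bool.noConfusion (show true = false from k)
        · exact iff_of_true le_rfl le_rfl
      closed := fun Φ _ => by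
        by_cases h : Φ true false
        · refine ⟨true, Setoid.ext fun x y => ?_⟩
          refine iff_of_true trivial ?_
          cases x <;> cases y <;> first | exact Setoid.refl' Φ _ | exact h | exact Setoid.symm' Φ h
        · refine ⟨false, Setoid.ext fun x y => ?_⟩
          constructor
          · intro hxy
            change x = y at hxy
            subst hxy
            exact Setoid.refl' Φ _
          · intro hxy
            cases x <;> cases y <;> first | rfl | exact absurd hxy h |
              exact absurd (Setoid.symm' Φ hxy) h }

/-- Day's doubling of the subset `C` of `Λ`: every element of `C` is replaced by two copies. -/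
structure Doubling {Λ : Type} (C : Set Λ) : Type where
  pt : Λ
  bit : Bool
  bit_eq : pt ∉ C → bit = false

instance Doubling.instLE {Λ : Type} [LE Λ] (C : Set Λ) : LE (Doubling C) :=
  ⟨fun x y => x.pt ≤ y.pt ∧ (x.pt ∈ C → y.pt ∈ C → x.bit ≤ y.bit)⟩

theorem Doubling.le_def {Λ : Type} [LE Λ] {C : Set Λ} {x y : Doubling C} :
    x ≤ y ↔ x.pt ≤ y.pt ∧ (x.pt ∈ C → y.pt ∈ C → x.bit ≤ y.bit) :=
  Iff.rfl

/-- Representability is preserved by doubling any convex set. -/
theorem representable_doubling {Λ : Type} [PartialOrder Λ] (hΛ : Representable Λ) (C : Set Λ)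
    (hC : C.OrdConnected) : Representable (Doubling C) := by
  classical
  let Low : Set Λ := (upperClosure C : Set Λ)
  let g : Low → Bool := fun γ => decide (γ.1 ∉ C)
  have hLow : IsUpperSet Low := (upperClosure C).upper
  have hg : Monotone g := by
    intro γ δ h
    by_cases hd : δ.1 ∈ C
    · obtain ⟨c, hc, hcγ⟩ := mem_upperClosure.1 γ.2
      have : γ.1 ∈ C := hC.out hc hd ⟨hcγ, h⟩
      simp [g, this, hd]
    · simp [g, hd]
  have mem : ∀ {a}, a ∈ C → a ∈ Low := fun h => subset_upperClosure h
  let f : Doubling C → Ext Λ Bool Low g := fun x =>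
    ⟨(x.pt, if x.pt ∈ C then x.bit else decide (x.pt ∈ Low)), by
      constructor
      · intro h
        have hc : x.pt ∉ C := fun hc => h (mem hc)
        simp only [if_neg hc, decide_eq_false h]
        rfl
      · intro h
        by_cases hc : x.pt ∈ C
        · simp [g, hc]
        · simp only [if_neg hc, decide_eq_true h]
          exact le_top⟩
  have hle : ∀ x y, f x ≤ f y ↔ x ≤ y := by
    intro x y
    constructor
    · intro h
      exact ⟨h.1, fun hx hy => by simpa [f, hx, hy] using h.2⟩
    · intro h
      refine ⟨h.1, ?_⟩
      by_cases hy : y.pt ∈ Low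
      · by_cases hyc : y.pt ∈ C
        · by_cases hxc : x.pt ∈ C
          · simpa [f, hxc, hyc] using h.2 hxc hyc
          · have hxL : x.pt ∉ Low := by
              intro hxL
              obtain ⟨c, hc, hcx⟩ := mem_upperClosure.1 hxL
              exact hxc (hC.out hc hyc ⟨hcx, h.1⟩)
            simp [f, hxc, hxL]
        · simp [f, hy, hyc]
      · have hxL : x.pt ∉ Low := fun hx => hy (hLow h.1 hx)
        have hxc : x.pt ∉ C := fun hx => hxL (mem hx)
        simp [f, hxc, hxL]
  refine representable_congr (representable_ext hΛ representable_bool Low hLow g hg)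
    ⟨Equiv.ofBijective f ⟨?_, ?_⟩, fun {x y} => hle x y⟩
  · intro x y h
    have h1 : x.pt = y.pt := congrArg (fun z => z.1.1) h
    have h2 := congrArg (fun z => z.1.2) h
    obtain ⟨a, s, hs⟩ := x
    obtain ⟨a', s', hs'⟩ := y
    cases h1
    by_cases ha : a ∈ C
    · simp only [f, if_pos ha] at h2
      subst h2
      rfl
    · cases hs ha
      cases hs' ha
      rfl
  · rintro ⟨⟨a, b⟩, h1, h2⟩
    refine ⟨⟨a, if a ∈ C then b else false, fun h => by simp [h]⟩, ?_⟩
    apply Subtype.ext
    by_cases ha : a ∈ C
    · simp [f, ha]
    · by_cases haL : a ∈ Low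
      · have := h2 haL
        simp [g, ha] at this
        have hb : b = true := le_antisymm le_top this
        simp [f, ha, haL, hb]
      · have hb : b = false := h1 haL
        simp [f, ha, haL, hb]

/-- Congruence normal lattices: those obtained from the one-element lattice by repeatedly
doubling convex sets (Day). -/
inductive CongruenceNormal : (L : Type) → LE L → Prop
  | one {L : Type} (inst : PartialOrder L) (h : Subsingleton L) (hne : Nonempty L) :
      CongruenceNormal L inst.toLE
  | double {Λ L : Type} (inst : PartialOrder Λ) (instL : LE L) (C : Set Λ)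
      (h : CongruenceNormal Λ inst.toLE) (hC : C.OrdConnected)
      (e : L ≃o Doubling C) : CongruenceNormal L instL

theorem representable_of_congruenceNormal {L : Type} {i : LE L}
    (h : CongruenceNormal L i) : @Representable L i := by
  induction h with
  | @one L inst hs hne =>
    obtain ⟨x⟩ := hne
    let _ : Unique L := { default := x, uniq := fun y => hs.elim y x }
    exact representable_unique
  | @double Λ L inst instL C _ hC e ih =>
    exact representable_congr (representable_doubling ih C hC) e

theorem CongruenceNormal.congr {L : Type} {i : LE L} (h : CongruenceNormal L i) :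
    ∀ {L' : Type} (i' : PartialOrder L') (_ : L' ≃o L), CongruenceNormal L' i'.toLE := by
  intro L' i' e
  cases h with
  | one inst hs hne =>
    exact .one i' (e.toEquiv.subsingleton) (e.toEquiv.nonempty)
  | double inst instL C h hC f =>
    exact .double inst _ C h hC (e.trans f)

/-- The copy index used by `doublingDual`. -/
def flipBit (p : Prop) [Decidable p] (b : Bool) : Bool := if p then !b else false

theorem flipBit_flipBit {p : Prop} [Decidable p] {b : Bool} (h : ¬ p → b = false) :
    flipBit p (flipBit p b) = b := by
  by_cases hp : p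
  · simp [flipBit, hp]
  · simp [flipBit, hp, h hp]

theorem flipBit_le {p q : Prop} [Decidable p] [Decidable q] (hp : p) (hq : q) {b c : Bool} :
    flipBit p b ≤ flipBit q c ↔ c ≤ b := by
  cases b <;> cases c <;> simp [flipBit, hp, hq]

theorem Doubling.ext' {Λ : Type} {C : Set Λ} {x y : Doubling C} (h : x.pt = y.pt)
    (h' : x.bit = y.bit) : x = y := by
  obtain ⟨a, b, hb⟩ := x
  obtain ⟨a', b', hb'⟩ := y
  cases h
  cases h'
  rfl

/-- The dual of a doubling is a doubling of the dual. -/
def doublingDual {Λ : Type} [PartialOrder Λ] (C : Set Λ) [DecidablePred (· ∈ C)] :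
    (Doubling C)ᵒᵈ ≃o Doubling (OrderDual.ofDual ⁻¹' C) where
  toFun x :=
    { pt := OrderDual.toDual (OrderDual.ofDual x).pt
      bit := flipBit ((OrderDual.ofDual x).pt ∈ C) (OrderDual.ofDual x).bit
      bit_eq := fun h => if_neg h }
  invFun y := OrderDual.toDual
    { pt := OrderDual.ofDual y.pt
      bit := flipBit (OrderDual.ofDual y.pt ∈ C) y.bit
      bit_eq := fun h => if_neg h }
  left_inv x := OrderDual.ofDual.injective
    (Doubling.ext' rfl (flipBit_flipBit (OrderDual.ofDual x).bit_eq))
  right_inv y := Doubling.ext' rfl (flipBit_flipBit y.bit_eq)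
  map_rel_iff' {x y} := by
    constructor
    · rintro ⟨h1, h2⟩
      exact ⟨h1, fun ha' ha =>
        (flipBit_le (p := (OrderDual.ofDual x).pt ∈ C) (q := (OrderDual.ofDual y).pt ∈ C)
          ha ha').1 (h2 ha ha')⟩
    · rintro ⟨h1, h2⟩
      exact ⟨h1, fun ha ha' =>
        (flipBit_le (p := (OrderDual.ofDual x).pt ∈ C) (q := (OrderDual.ofDual y).pt ∈ C)
          ha ha').2 (h2 ha' ha)⟩

theorem CongruenceNormal.dual {L : Type} {i : LE L} (h : CongruenceNormal L i) :
    CongruenceNormal Lᵒᵈ inferInstance := by
  classical
  induction h with
  | @one L inst hs hne =>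
    exact .one (inferInstance : PartialOrder Lᵒᵈ) hs hne
  | @double Λ L inst instL C _ hC e ih =>
    exact .double (inferInstance : PartialOrder Λᵒᵈ) _ _ ih hC.dual (e.dual.trans (doublingDual C))

end Vale.Agent.P183
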