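import Vale.Agent.P183.Basic

/- The gluing construction: it represents extensions of a representable lattice. -/

namespace Vale.Agent.P183

/-- The extension of `Λ` by `L` along the upper set `Low` and the map `g`. -/
abbrev Ext (Λ L : Type) [LE L] [Bot L] (Low : Set Λ) (g : Low → L) : Type _ :=
  {x : Λ × L // (x.1 ∉ Low → x.2 = ⊥) ∧ ∀ h : x.1 ∈ Low, g ⟨x.1, h⟩ ≤ x.2}

namespace Gadget

inductive Node (G E C : Type) : Type
  | P : G → C → Node G E C
  | hub : G → C → Node G E C
  | J : E → C → Node G E C

instance {G E C : Type} [Finite G] [Finite E] [Finite C] : Finite (Node G E C) :=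
  Finite.of_injective (β := (G × C) ⊕ (G × C) ⊕ (E × C))
    (fun
      | .P a c => .inl (a, c)
      | .hub a c => .inr (.inl (a, c))
      | .J a c => .inr (.inr (a, c)))
    (by
      intro a b h
      cases a <;> cases b <;> simp_all)

variable {Λ L : Type} [PartialOrder Λ] [PartialOrder L] [OrderBot L]
  (M : Model Λ) (N : Model L) (Low : Set Λ) (g : Low → L)

abbrev Pairs := {e : Low × Low // WellOrderingRel e.1 e.2}

abbrev W := Node Low (Pairs Low) N.X

abbrev Spoke := {s : Low × N.X × N.X // N.F (g s.1) s.2.1 s.2.2}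

abbrev Piece := Spoke N Low g ⊕ (Pairs Low × N.X × Bool)

abbrev U := M.X × M.X → M.X

abbrev R := W N Low ⊕ (Piece N Low g × U M)

variable {N Low}

def key : W N Low → N.X
  | .P _ c => c
  | .hub _ c => c
  | .J _ c => c

def col : W N Low → M.X × M.X → Prop
  | .P γ _, p => M.F γ.1 p.1 p.2
  | .hub γ _, p => M.F γ.1 p.1 p.2
  | .J e _, p => M.F e.1.1.1 p.1 p.2 ∨ M.F e.1.2.1 p.1 p.2

variable {g}

def src : Piece N Low g → W N Low
  | .inl s => .P s.1.1 s.1.2.2
  | .inr (e, c, false) => .P e.1.1 c
  | .inr (e, c, true) => .P e.1.2 c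

def tgt : Piece N Low g → W N Low
  | .inl s => .hub s.1.1 s.1.2.1
  | .inr (e, c, _) => .J e c

theorem col_swap (w : W N Low) (p : M.X × M.X) : col M w p → col M w p.swap := by
  cases w <;> simp only [col, Prod.fst_swap, Prod.snd_swap]
  · exact fun h => (M.F _).symm h
  · exact fun h => (M.F _).symm h
  · rintro (h | h)
    · exact .inl ((M.F _).symm h)
    · exact .inr ((M.F _).symm h)

theorem col_src (i : Piece N Low g) (p : M.X × M.X) : col M (src i) p → col M (tgt i) p := by
  rcases i with s | ⟨e, c, _ | _⟩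
  · exact id
  · exact Or.inl
  · exact Or.inr

def base : U M := fun p => p.1

noncomputable def top (i : Piece N Low g) : U M :=
  fun p => open Classical in if col M (tgt i) p then p.2 else p.1

def Vrel (a : Λ) (u v : U M) : Prop := ∀ p, M.F a (u p) (v p)

variable {M}

theorem vrel_refl (a : Λ) (u : U M) : Vrel M a u u := fun _ => (M.F a).refl _

theorem vrel_symm {a : Λ} {u v : U M} (h : Vrel M a u v) : Vrel M a v u :=
  fun p => (M.F a).symm (h p)

theorem vrel_trans {a : Λ} {u v w : U M} (h : Vrel M a u v) (h' : Vrel M a v w) :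
    Vrel M a u w :=
  fun p => (M.F a).trans (h p) (h' p)

variable (M)

def Live (a : Λ) (w : W N Low) : Prop := ∀ p, col M w p → M.F a p.1 p.2

theorem live_mono {a b : Λ} (h : a ≤ b) {w : W N Low} : Live M a w → Live M b w :=
  fun hl p hp => M.mono h (hl p hp)

theorem live_P {a : Λ} {γ : Low} {c : N.X} : Live M a (.P γ c) ↔ γ.1 ≤ a := by
  refine ⟨fun h => (M.le_iff _ _).1 fun {x y} hxy => h (x, y) hxy, fun h p hp => M.mono h hp⟩

theorem live_hub {a : Λ} {γ : Low} {c : N.X} : Live M a (.hub γ c) ↔ γ.1 ≤ a := by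
  refine ⟨fun h => (M.le_iff _ _).1 fun {x y} hxy => h (x, y) hxy, fun h p hp => M.mono h hp⟩

theorem live_src {a : Λ} (i : Piece N Low g) : Live M a (tgt i) → Live M a (src i) :=
  fun h p hp => h p (col_src M i p hp)

theorem live_of_base_top {a : Λ} {i : Piece N Low g} (h : Vrel M a (base M) (top M i)) :
    Live M a (tgt i) := by
  intro p hp
  simpa [base, top, hp] using h p

theorem base_top_of_live {a : Λ} {i : Piece N Low g} (h : Live M a (tgt i)) :
    Vrel M a (base M) (top M i) := by
  intro p
  by_cases hp : col M (tgt i) p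
  · simpa [base, top, hp] using h p hp
  · simpa [base, top, hp] using Setoid.refl' (M.F a) p.1

/-- The induced relation on glue nodes. -/
def Conn (a : Λ) (b : L) (w w' : W N Low) : Prop :=
  w = w' ∨ (Live M a w ∧ Live M a w' ∧ N.F b (key w) (key w'))

theorem conn_symm {a : Λ} {b : L} {w w' : W N Low} (h : Conn M a b w w') :
    Conn M a b w' w := by
  rcases h with rfl | ⟨h1, h2, h3⟩
  · exact .inl rfl
  · exact .inr ⟨h2, h1, (N.F b).symm h3⟩

theorem conn_trans {a : Λ} {b : L} {w w' w'' : W N Low} (h : Conn M a b w w')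
    (h' : Conn M a b w' w'') : Conn M a b w w'' := by
  rcases h with rfl | ⟨h1, h2, h3⟩
  · exact h'
  · rcases h' with rfl | ⟨_, h5, h6⟩
    · exact .inr ⟨h1, h2, h3⟩
    · exact .inr ⟨h1, h5, (N.F b).trans h3 h6⟩

def Att (a : Λ) : R M N Low g → W N Low → Prop
  | .inl w0, w => w0 = w
  | .inr (i, u), w => (w = src i ∧ Vrel M a u (base M)) ∨ (w = tgt i ∧ Vrel M a u (top M i))

def Same (a : Λ) : R M N Low g → R M N Low g → Prop
  | .inl w, .inl w' => w = w'
  | .inr (i, u), .inr (j, v) => i = j ∧ Vrel M a u v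
  | _, _ => False

theorem same_refl (a : Λ) : ∀ x : R M N Low g, Same M a x x
  | .inl _ => rfl
  | .inr (_, u) => ⟨rfl, vrel_refl a u⟩

theorem same_symm {a : Λ} : ∀ {x y : R M N Low g}, Same M a x y → Same M a y x := by
  rintro (w | ⟨i, u⟩) (w' | ⟨j, v⟩) h
  · exact Eq.symm h
  · exact h.elim
  · exact h.elim
  · exact ⟨h.1.symm, vrel_symm h.2⟩

theorem same_trans {a : Λ} {x y z : R M N Low g} (h : Same M a x y) (h' : Same M a y z) :
    Same M a x z := by
  rcases x with w | ⟨i, u⟩ <;> rcases y with w' | ⟨j, v⟩ <;> rcases z with w'' | ⟨k, t⟩ <;>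
    simp only [Same] at h h' ⊢
  · exact h.trans h'
  · exact ⟨h.1.trans h'.1, vrel_trans h.2 h'.2⟩

theorem att_congr {a : Λ} {x y : R M N Low g} {w : W N Low} (h : Same M a x y)
    (hy : Att M a y w) : Att M a x w := by
  rcases x with w0 | ⟨i, u⟩ <;> rcases y with w1 | ⟨j, v⟩ <;> simp only [Same] at h
  · exact h.trans hy
  · obtain ⟨rfl, h⟩ := h
    rcases hy with ⟨h1, h2⟩ | ⟨h1, h2⟩
    · exact .inl ⟨h1, vrel_trans h h2⟩
    · exact .inr ⟨h1, vrel_trans h h2⟩

variable (Low g)

/-- Parameters of the glued relations. -/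
structure Data where
  mono_low : IsUpperSet Low
  mono_g : Monotone g

variable {Low g}

theorem conn_endpoints (D : Data Low g) (s : Ext Λ L Low g) (i : Piece N Low g)
    (h : Vrel M s.1.1 (base M) (top M i)) : Conn M s.1.1 s.1.2 (src i) (tgt i) := by
  have hl := live_of_base_top M h
  have hs := live_src M i hl
  refine .inr ⟨hs, hl, ?_⟩
  rcases i with ⟨⟨γ, c, c'⟩, hc⟩ | ⟨e, c, _ | _⟩
  · have hle : γ.1 ≤ s.1.1 := (live_hub M).1 hl
    have hlow : s.1.1 ∈ Low := D.mono_low hle γ.2
    have : g γ ≤ s.1.2 := le_trans (D.mono_g (show γ ≤ ⟨s.1.1, hlow⟩ from hle)) (s.2.2 hlow)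
    exact (N.F _).symm (N.mono this hc)
  · exact (N.F _).refl _
  · exact (N.F _).refl _

theorem att_conn (D : Data Low g) (s : Ext Λ L Low g) {x : R M N Low g} {w w' : W N Low}
    (h : Att M s.1.1 x w) (h' : Att M s.1.1 x w') : Conn M s.1.1 s.1.2 w w' := by
  rcases x with w0 | ⟨i, u⟩
  · exact .inl (h.symm.trans h')
  · rcases h with ⟨rfl, h⟩ | ⟨rfl, h⟩ <;> rcases h' with ⟨rfl, h'⟩ | ⟨rfl, h'⟩
    · exact .inl rfl
    · exact conn_endpoints M D s i (vrel_trans (vrel_symm h) h')
    · exact conn_symm M (conn_endpoints M D s i (vrel_trans (vrel_symm h') h))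
    · exact .inl rfl

/-- The relation on the raw point set attached to an element of the extension. -/
def rho (D : Data Low g) (s : Ext Λ L Low g) : Setoid (R M N Low g) where
  r x y := Same M s.1.1 x y ∨
    ∃ w w', Att M s.1.1 x w ∧ Att M s.1.1 y w' ∧ Conn M s.1.1 s.1.2 w w'
  iseqv := {
    refl := fun x => .inl (same_refl M _ x)
    symm := by
      rintro x y (h | ⟨w, w', h1, h2, h3⟩)
      · exact .inl (same_symm M h)
      · exact .inr ⟨w', w, h2, h1, conn_symm M h3⟩
    trans := by
      rintro x y z (h | ⟨w, w', h1, h2, h3⟩) (h' | ⟨v, v', k1, k2, k3⟩)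
      · exact .inl (same_trans M h h')
      · exact .inr ⟨v, v', att_congr M h k1, k2, k3⟩
      · exact .inr ⟨w, w', h1, att_congr M (same_symm M h') h2, h3⟩
      · exact .inr ⟨w, v', h1, k2,
          conn_trans M h3 (conn_trans M (att_conn M D s h2 k1) k3)⟩ }

/-! ### Separating maps -/

/-- A cut: a choice, for each coordinate, of a side of every node. -/
def IsCut (side : M.X × M.X → W N Low → Prop) : Prop :=
  ∀ p w w', side p w → ¬ side p w' → col M w p ∨ col M w' p

/-- The cut separates the two ends of the piece `i`. -/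
def Fits (side : M.X × M.X → W N Low → Prop) (i : Piece N Low g) : Prop :=
  ∀ p, ¬ side p (src i) ∧ (side p (tgt i) ↔ col M (tgt i) p)

noncomputable def val (side : M.X × M.X → W N Low → Prop) (w : W N Low) : U M :=
  fun p => open Classical in if side p w then p.2 else p.1

noncomputable def fval (side : M.X × M.X → W N Low → Prop) (i0 : Piece N Low g → Prop) :
    R M N Low g → U M
  | .inl w => val M side w
  | .inr (i, u) => fun p => open Classical in
      if i0 i then u p
      else if side p (src i) ↔ side p (tgt i) then val M side (src i) p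
      else if side p (tgt i) then u p else u p.swap

variable {side : M.X × M.X → W N Low → Prop} {i0 : Piece N Low g → Prop}

theorem fval_base (hc : IsCut M side) (h0 : ∀ i, i0 i → Fits M side i) (i : Piece N Low g) :
    fval M side i0 (.inr (i, base M)) = val M side (src i) := by
  funext p
  by_cases hi : i0 i
  · simp [fval, hi, val, base, (h0 i hi p).1]
  · by_cases he : side p (src i) ↔ side p (tgt i)
    · simp [fval, hi, he]
    · by_cases ht : side p (tgt i)
      · have hs : ¬ side p (src i) := fun h => he ⟨fun _ => ht, fun _ => h⟩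
        simp [fval, hi, ht, hs, val, base]
      · have hs : side p (src i) := by
          by_contra h
          exact he ⟨fun k => absurd k h, fun k => absurd k ht⟩
        simp [fval, hi, ht, hs, val, base]

theorem fval_top (hc : IsCut M side) (h0 : ∀ i, i0 i → Fits M side i) (i : Piece N Low g) :
    fval M side i0 (.inr (i, top M i)) = val M side (tgt i) := by
  funext p
  by_cases hi : i0 i
  · by_cases hp : col M (tgt i) p
    · simp [fval, hi, val, top, hp, (h0 i hi p).2.2 hp]
    · have : ¬ side p (tgt i) := fun h => hp ((h0 i hi p).2.1 h)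
      simp [fval, hi, val, top, hp, this]
  · by_cases he : side p (src i) ↔ side p (tgt i)
    · simp [fval, hi, he, val]
      by_cases ht : side p (tgt i) <;> simp [ht, he]
    · by_cases ht : side p (tgt i)
      · have hs : ¬ side p (src i) := fun h => he ⟨fun _ => ht, fun _ => h⟩
        have hp : col M (tgt i) p := (hc p _ _ ht hs).elim id (col_src M i p)
        simp [fval, hi, ht, hs, val, top, hp]
      · have hs : side p (src i) := by
          by_contra h
          exact he ⟨fun k => absurd k h, fun k => absurd k ht⟩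
        have hp : col M (tgt i) p := (hc p _ _ hs ht).elim (col_src M i p) id
        have hp' : col M (tgt i) p.swap := col_swap M _ p hp
        simp [fval, hi, ht, hs, val, top, hp']

theorem fval_vrel_piece {a : Λ} (i : Piece N Low g) {u v : U M} (h : Vrel M a u v) :
    Vrel M a (fval M side i0 (.inr (i, u))) (fval M side i0 (.inr (i, v))) := by
  intro p
  simp only [fval]
  split_ifs
  · exact h p
  · exact (M.F a).refl _
  · exact h p
  · exact h p.swap

theorem fval_conn (hc : IsCut M side) {a : Λ} {b : L} {w w' : W N Low}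
    (h : Conn M a b w w') : Vrel M a (val M side w) (val M side w') := by
  rcases h with rfl | ⟨h1, h2, -⟩
  · exact vrel_refl _ _
  · intro p
    by_cases hw : side p w <;> by_cases hw' : side p w' <;> simp only [val, hw, hw', if_true, if_false]
    · exact (M.F a).refl _
    · exact (M.F a).symm ((hc p _ _ hw hw').elim (h1 p) (h2 p))
    · exact (hc p _ _ hw' hw).elim (h2 p) (h1 p)
    · exact (M.F a).refl _

theorem fval_att (hc : IsCut M side) (h0 : ∀ i, i0 i → Fits M side i) {a : Λ}
    {x : R M N Low g} {w : W N Low} (h : Att M a x w) :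
    Vrel M a (fval M side i0 x) (val M side w) := by
  rcases x with w0 | ⟨i, u⟩
  · cases h; exact vrel_refl _ _
  · rcases h with ⟨rfl, h⟩ | ⟨rfl, h⟩
    · exact fval_base M hc h0 i ▸ fval_vrel_piece M i h
    · exact fval_top M hc h0 i ▸ fval_vrel_piece M i h

theorem fval_rho (D : Data Low g) (hc : IsCut M side) (h0 : ∀ i, i0 i → Fits M side i)
    (s : Ext Λ L Low g) {x y : R M N Low g} (h : rho M D s x y) :
    Vrel M s.1.1 (fval M side i0 x) (fval M side i0 y) := by
  rcases h with h | ⟨w, w', h1, h2, h3⟩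
  · rcases x with w | ⟨i, u⟩ <;> rcases y with w' | ⟨j, v⟩ <;> simp only [Same] at h
    · subst h; exact vrel_refl _ _
    · obtain ⟨rfl, h⟩ := h; exact fval_vrel_piece M i h
  · exact vrel_trans (fval_att M hc h0 h1)
      (vrel_trans (fval_conn M hc h3) (vrel_symm (fval_att M hc h0 h2)))

/-- The cut at a single node. -/
def single (w0 : W N Low) (p : M.X × M.X) (w : W N Low) : Prop := col M w0 p ∧ w = w0

theorem single_isCut (w0 : W N Low) : IsCut M (single M w0) := by
  rintro p w w' ⟨h, rfl⟩ _
  exact .inl h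

theorem single_fits (i : Piece N Low g) (h : src i ≠ tgt i) : Fits M (single M (tgt i)) i :=
  fun _ => ⟨fun k => h k.2, fun k => k.1, fun k => ⟨k, rfl⟩⟩

theorem src_ne_tgt (i : Piece N Low g) : src i ≠ tgt i := by
  rcases i with s | ⟨e, c, _ | _⟩ <;> simp [src, tgt]

end Gadget

end Vale.Agent.P183
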